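import Mathlib.Analysis.Matrix.Spectrum
import Mathlib.Analysis.Matrix.PosDef
import Mathlib.LinearAlgebra.Matrix.PosDef
import Mathlib.Algebra.Order.Star.Real

/-!
# P141, line (A), M4: births of the nested lazy projection

Dyadic tree: cell `(k, m)` of scale `k`, children `(k, 2 m)`, `(k, 2 m + 1)` of `(k + 1, m)`;
`G k m` positive semidefinite, `G (k + 1) m` the mean of the children.

* `birth_step` : one cell;
* `births` : projections `E k m` increasing towards the leaves, residual `(1 - E) G (1 - E) ≤ w` at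
  every cell, mean of `tr E` over the cells of the scale `k` below a top cell `≤ tr G / w`.
-/

namespace Vale.Agent.P141.H223

open Matrix Finset

noncomputable section

variable {ι : Type*} [Fintype ι] [DecidableEq ι]

/-- symmetric idempotent -/
structure Pj (E : Matrix ι ι ℝ) : Prop where
  tr : Eᵀ = E
  sq : E * E = E

omit [DecidableEq ι] in
theorem Pj.zero : Pj (0 : Matrix ι ι ℝ) := ⟨by simp, by simp⟩

theorem Pj.one : Pj (1 : Matrix ι ι ℝ) := ⟨by simp, by simp⟩

theorem Pj.compl {E : Matrix ι ι ℝ} (h : Pj E) : Pj (1 - E) := by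
  refine ⟨by rw [transpose_sub, transpose_one, h.tr], ?_⟩
  simp only [Matrix.mul_sub, Matrix.sub_mul, Matrix.mul_one, Matrix.one_mul, h.sq]
  abel

omit [DecidableEq ι] in
theorem Pj.posSemidef {E : Matrix ι ι ℝ} (h : Pj E) : E.PosSemidef := by
  have h1 := posSemidef_conjTranspose_mul_self E
  rwa [conjTranspose_eq_transpose_of_trivial, h.tr, h.sq] at h1

/-- spectral decomposition in matrix letters -/
theorem exists_spec {R : Matrix ι ι ℝ} (hR : R.PosSemidef) :
    ∃ (U : Matrix ι ι ℝ) (d : ι → ℝ), Uᵀ * U = 1 ∧ U * Uᵀ = 1 ∧ (∀ i, 0 ≤ d i) ∧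
      R = U * diagonal d * Uᵀ := by
  have hs := hR.isHermitian.spectral_theorem
  rw [Unitary.conjStarAlgAut_apply] at hs
  have h1 : (hR.isHermitian.eigenvectorUnitary : Matrix ι ι ℝ)ᵀ *
      (hR.isHermitian.eigenvectorUnitary : Matrix ι ι ℝ) = 1 := by
    have := Unitary.coe_star_mul_self hR.isHermitian.eigenvectorUnitary
    rwa [star_eq_conjTranspose, conjTranspose_eq_transpose_of_trivial] at this
  have h2 : (hR.isHermitian.eigenvectorUnitary : Matrix ι ι ℝ) *
      (hR.isHermitian.eigenvectorUnitary : Matrix ι ι ℝ)ᵀ = 1 := by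
    exact mul_eq_one_comm.1 h1
  refine ⟨(hR.isHermitian.eigenvectorUnitary : Matrix ι ι ℝ), hR.isHermitian.eigenvalues, h1, h2,
    hR.eigenvalues_nonneg, ?_⟩
  simpa [star_eq_conjTranspose, conjTranspose_eq_transpose_of_trivial, Function.comp_def]
    using hs

/-- products of matrices diagonal in the same orthonormal basis -/
theorem diag_mul {U : Matrix ι ι ℝ} (h : Uᵀ * U = 1) (a b : ι → ℝ) :
    (U * diagonal a * Uᵀ) * (U * diagonal b * Uᵀ) = U * diagonal (fun i => a i * b i) * Uᵀ := by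
  calc (U * diagonal a * Uᵀ) * (U * diagonal b * Uᵀ)
      = U * diagonal a * (Uᵀ * U) * diagonal b * Uᵀ := by simp only [Matrix.mul_assoc]
    _ = U * (diagonal a * diagonal b) * Uᵀ := by rw [h, Matrix.mul_one, Matrix.mul_assoc U]
    _ = _ := by rw [diagonal_mul_diagonal]

theorem diag_trace {U : Matrix ι ι ℝ} (h : Uᵀ * U = 1) (a : ι → ℝ) :
    (U * diagonal a * Uᵀ).trace = ∑ i, a i := by
  rw [trace_mul_comm, ← Matrix.mul_assoc, h, Matrix.one_mul, trace_diagonal]

omit [DecidableEq ι] in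
theorem diag_transpose [DecidableEq ι] (U : Matrix ι ι ℝ) (a : ι → ℝ) :
    (U * diagonal a * Uᵀ)ᵀ = U * diagonal a * Uᵀ := by
  rw [transpose_mul, transpose_mul, transpose_transpose, diagonal_transpose, Matrix.mul_assoc]

theorem diag_sub {U : Matrix ι ι ℝ} (a b : ι → ℝ) :
    U * diagonal a * Uᵀ - U * diagonal b * Uᵀ = U * diagonal (fun i => a i - b i) * Uᵀ := by
  rw [← Matrix.sub_mul, ← Matrix.mul_sub, diagonal_sub]

theorem diag_one {U : Matrix ι ι ℝ} (h : U * Uᵀ = 1) (c : ℝ) :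
    c • (1 : Matrix ι ι ℝ) = U * diagonal (fun _ => c) * Uᵀ := by
  have h1 : diagonal (fun _ : ι => c) = c • (1 : Matrix ι ι ℝ) := by
    rw [smul_one_eq_diagonal]
  rw [h1, Matrix.mul_smul, Matrix.smul_mul, Matrix.mul_one, h]

theorem diag_psd {U : Matrix ι ι ℝ} {a : ι → ℝ} (ha : ∀ i, 0 ≤ a i) :
    (U * diagonal a * Uᵀ).PosSemidef := by
  have h1 : (diagonal a).PosSemidef := PosSemidef.diagonal ha
  have h2 := h1.mul_mul_conjTranspose_same U
  rwa [conjTranspose_eq_transpose_of_trivial] at h2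

/-- **One birth**: the directions of residual potential above `w` are added. -/
theorem birth_step {w : ℝ} (hw : 0 < w) {G E : Matrix ι ι ℝ} (hG : G.PosSemidef) (hE : Pj E) :
    ∃ E' : Matrix ι ι ℝ, Pj E' ∧ E' * E = E ∧ E * E' = E ∧
      (w • (1 : Matrix ι ι ℝ) - (1 - E') * G * (1 - E')).PosSemidef ∧
      w * E'.trace + ((1 - E') * G).trace ≤ w * E.trace + ((1 - E) * G).trace := by
  classical
  have hC := hE.compl
  have hR : ((1 - E) * G * (1 - E)).PosSemidef := by
    have h1 := hG.mul_mul_conjTranspose_same (1 - E)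
    rwa [conjTranspose_eq_transpose_of_trivial, hC.tr] at h1
  obtain ⟨U, d, hU1, hU2, hd, hRe⟩ := exists_spec hR
  set R := (1 - E) * G * (1 - E) with hRdef
  set p : ι → ℝ := fun i => if w < d i then 1 else 0 with hp
  set q : ι → ℝ := fun i => if w < d i then (d i)⁻¹ else 0 with hq
  set P := U * diagonal p * Uᵀ with hP
  set S := U * diagonal q * Uᵀ with hS
  have hPP : P * P = P := by
    rw [hP, diag_mul hU1]
    congr 3
    funext i
    simp only [hp]
    split_ifs <;> norm_num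
  have hPt : Pᵀ = P := diag_transpose U p
  have hPR : P = R * S := by
    rw [hP, hRe, hS, diag_mul hU1]
    congr 3
    funext i
    simp only [hp, hq]
    split_ifs with h
    · rw [mul_inv_cancel₀ (hw.trans h).ne']
    · rw [mul_zero]
  have hPR' : P = S * R := by
    rw [hP, hRe, hS, diag_mul hU1]
    congr 3
    funext i
    simp only [hp, hq]
    split_ifs with h
    · rw [inv_mul_cancel₀ (hw.trans h).ne']
    · rw [zero_mul]
  have hE1 : E * (1 - E) = 0 := by rw [Matrix.mul_sub, Matrix.mul_one, hE.sq, sub_self]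
  have h1E : (1 - E) * E = 0 := by rw [Matrix.sub_mul, Matrix.one_mul, hE.sq, sub_self]
  have hER : E * R = 0 := by
    rw [hRdef, ← Matrix.mul_assoc, ← Matrix.mul_assoc, hE1, Matrix.zero_mul, Matrix.zero_mul]
  have hRE : R * E = 0 := by
    rw [hRdef, Matrix.mul_assoc, h1E, Matrix.mul_zero]
  have hEP : E * P = 0 := by rw [hPR, ← Matrix.mul_assoc, hER, Matrix.zero_mul]
  have hPE : P * E = 0 := by rw [hPR', Matrix.mul_assoc, hRE, Matrix.mul_zero]
  have hE' : Pj (E + P) := by
    refine ⟨by rw [transpose_add, hE.tr, hPt], ?_⟩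
    rw [Matrix.mul_add, Matrix.add_mul, Matrix.add_mul, hE.sq, hPP, hEP, hPE]
    abel
  have hfac : 1 - (E + P) = (1 - E) * (1 - P) := by
    simp only [Matrix.mul_sub, Matrix.sub_mul, Matrix.mul_one, Matrix.one_mul, hEP]
    abel
  have hfac' : 1 - (E + P) = (1 - P) * (1 - E) := by
    simp only [Matrix.mul_sub, Matrix.sub_mul, Matrix.mul_one, Matrix.one_mul, hPE]
    abel
  have h1P : 1 - P = U * diagonal (fun i => 1 - p i) * Uᵀ := by
    have h1 := diag_one hU2 1
    rw [one_smul] at h1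
    rw [hP]
    conv_lhs => rw [h1]
    rw [diag_sub]
  have hres : (1 - (E + P)) * G * (1 - (E + P)) =
      U * diagonal (fun i => (1 - p i) * d i * (1 - p i)) * Uᵀ := by
    have h1 : (1 - (E + P)) * G * (1 - (E + P)) = (1 - P) * R * (1 - P) := by
      calc (1 - (E + P)) * G * (1 - (E + P))
          = ((1 - P) * (1 - E)) * G * ((1 - E) * (1 - P)) := by
            rw [← hfac', ← hfac]
        _ = _ := by rw [hRdef]; simp only [Matrix.mul_assoc]
    rw [h1, h1P, hRe, diag_mul hU1, diag_mul hU1]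
  have htrG : ∀ F : Matrix ι ι ℝ, Pj F → (F * G).trace = (F * G * F).trace := by
    intro F hF
    rw [trace_mul_comm (F * G) F, ← Matrix.mul_assoc, hF.sq]
  refine ⟨E + P, hE', by rw [Matrix.add_mul, hE.sq, hPE, add_zero],
    by rw [Matrix.mul_add, hE.sq, hEP, add_zero], ?_, ?_⟩
  · rw [hres, diag_one hU2 w, diag_sub]
    refine diag_psd fun i => ?_
    simp only [hp]
    split_ifs with h
    · simp [hw.le]
    · push Not at h
      simp only [sub_zero, one_mul, mul_one]
      linarith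
  · rw [htrG _ hE'.compl, htrG _ hC, hres, ← hRdef, hRe, diag_trace hU1, diag_trace hU1, trace_add,
      hP, diag_trace hU1, mul_add, add_assoc]
    refine add_le_add le_rfl ?_
    rw [mul_sum, ← sum_add_distrib]
    refine sum_le_sum fun i _ => ?_
    simp only [hp]
    split_ifs with h
    · simp only [sub_self, zero_mul, mul_one, add_zero]
      exact h.le
    · simp

/-- the mass of a projection in a bounded positive semidefinite matrix -/
theorem trace_mul_le {h : ℝ} {H E : Matrix ι ι ℝ} (hE : Pj E)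
    (hH : (h • (1 : Matrix ι ι ℝ) - H).PosSemidef) : (E * H).trace ≤ h * E.trace := by
  have h1 := hH.mul_mul_conjTranspose_same E
  rw [conjTranspose_eq_transpose_of_trivial, hE.tr] at h1
  have h2 := h1.trace_nonneg
  have h3 : E * (h • (1 : Matrix ι ι ℝ) - H) * E = h • E - E * H * E := by
    rw [Matrix.mul_sub, Matrix.sub_mul, Matrix.mul_smul, Matrix.mul_one, Matrix.smul_mul, hE.sq]
  have h4 : (E * H * E).trace = (E * H).trace := by
    rw [trace_mul_comm (E * H) E, ← Matrix.mul_assoc, hE.sq]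
  rw [h3, trace_sub, trace_smul, smul_eq_mul, h4] at h2
  linarith

/-! ### The tree -/

/-- the projection after the births at one cell -/
def nxt (w : ℝ) (G E : Matrix ι ι ℝ) : Matrix ι ι ℝ :=
  open Classical in
  if h : 0 < w ∧ G.PosSemidef ∧ Pj E then (birth_step h.1 h.2.1 h.2.2).choose else E

theorem nxt_spec {w : ℝ} (hw : 0 < w) {G E : Matrix ι ι ℝ} (hG : G.PosSemidef) (hE : Pj E) :
    Pj (nxt w G E) ∧ nxt w G E * E = E ∧ E * nxt w G E = E ∧
      (w • (1 : Matrix ι ι ℝ) - (1 - nxt w G E) * G * (1 - nxt w G E)).PosSemidef ∧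
      w * (nxt w G E).trace + ((1 - nxt w G E) * G).trace ≤
        w * E.trace + ((1 - E) * G).trace := by
  unfold nxt
  rw [dif_pos ⟨hw, hG, hE⟩]
  exact (birth_step hw hG hE).choose_spec

/-- the projection at depth `j` below the scale `n` -/
def EE (w : ℝ) (n : ℕ) (G : ℕ → ℤ → Matrix ι ι ℝ) : ℕ → ℤ → Matrix ι ι ℝ
  | 0, m => nxt w (G n m) 0
  | (j + 1), m => nxt w (G (n - (j + 1)) m) (EE w n G j (m / 2))

theorem EE_pj {w : ℝ} (hw : 0 < w) {n : ℕ} {G : ℕ → ℤ → Matrix ι ι ℝ}
    (hG : ∀ k ≤ n, ∀ m, (G k m).PosSemidef) (j : ℕ) (m : ℤ) : Pj (EE w n G j m) := by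
  induction j generalizing m with
  | zero => exact (nxt_spec hw (hG n le_rfl m) Pj.zero).1
  | succ j ih => exact (nxt_spec hw (hG _ (Nat.sub_le _ _) m) (ih (m / 2))).1

/-- the potential of the births -/
def pot (w : ℝ) (G E : Matrix ι ι ℝ) : ℝ := w * E.trace + ((1 - E) * G).trace

/-- **Births on a finite dyadic tree.** -/
theorem births {w : ℝ} (hw : 0 < w) (n : ℕ) (G : ℕ → ℤ → Matrix ι ι ℝ)
    (hG : ∀ k ≤ n, ∀ m, (G k m).PosSemidef)
    (hmean : ∀ k < n, ∀ m, G (k + 1) m = (1 / 2 : ℝ) • (G k (2 * m) + G k (2 * m + 1))) :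
    ∃ E : ℕ → ℤ → Matrix ι ι ℝ,
      (∀ k ≤ n, ∀ m, Pj (E k m)) ∧
      (∀ k < n, ∀ m, E k m * E (k + 1) (m / 2) = E (k + 1) (m / 2) ∧
        E (k + 1) (m / 2) * E k m = E (k + 1) (m / 2)) ∧
      (∀ k ≤ n, ∀ m, (w • (1 : Matrix ι ι ℝ) - (1 - E k m) * G k m * (1 - E k m)).PosSemidef) ∧
      (∀ k < n, ∀ m, pot w (G k m) (E k m) ≤ pot w (G k m) (E (k + 1) (m / 2))) ∧
      (∀ m, pot w (G n m) (E n m) ≤ (G n m).trace) ∧
      (∀ k ≤ n, ∀ m, ∑ i ∈ Ico (2 ^ (n - k) * m) (2 ^ (n - k) * m + 2 ^ (n - k)),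
        (w * (E k i).trace + ((1 - E k i) * G k i).trace) ≤ 2 ^ (n - k) * (G n m).trace) := by
  set E : ℕ → ℤ → Matrix ι ι ℝ := fun k m => EE w n G (n - k) m with hE
  have hpj : ∀ k m, Pj (E k m) := fun k m => EE_pj hw hG _ m
  have hstep : ∀ k < n, ∀ m, E k m = nxt w (G k m) (E (k + 1) (m / 2)) := by
    intro k hk m
    obtain ⟨j, hj⟩ : ∃ j, n - k = j + 1 := ⟨n - k - 1, by omega⟩
    have h1 : n - (k + 1) = j := by omega
    have h2 : n - (j + 1) = k := by omega
    show EE w n G (n - k) m = nxt w (G k m) (EE w n G (n - (k + 1)) (m / 2))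
    rw [hj, h1, EE, h2]
  have htop : ∀ m, E n m = nxt w (G n m) 0 := by
    intro m
    show EE w n G (n - n) m = _
    rw [Nat.sub_self, EE]
  have hp1 : ∀ k < n, ∀ m, pot w (G k m) (E k m) ≤ pot w (G k m) (E (k + 1) (m / 2)) := by
    intro k hk m
    rw [hstep k hk m]
    exact (nxt_spec hw (hG k hk.le m) (hpj _ _)).2.2.2.2
  have hp0 : ∀ m, pot w (G n m) (E n m) ≤ (G n m).trace := by
    intro m
    rw [htop m]
    refine ((nxt_spec hw (hG n le_rfl m) Pj.zero).2.2.2.2).trans (le_of_eq ?_)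
    simp
  refine ⟨E, fun k _ m => hpj k m, ?_, ?_, hp1, hp0, ?_⟩
  · intro k hk m
    have h1 := nxt_spec hw (hG k hk.le m) (hpj (k + 1) (m / 2))
    rw [hstep k hk m]
    exact ⟨h1.2.1, h1.2.2.1⟩
  · intro k hk m
    rcases hk.eq_or_lt with rfl | hlt
    · rw [htop m]
      exact (nxt_spec hw (hG _ le_rfl m) Pj.zero).2.2.2.1
    · rw [hstep k hlt m]
      exact (nxt_spec hw (hG k hk m) (hpj _ _)).2.2.2.1
  · -- the sums of the potentials
    have key : ∀ j k, k + j = n → ∀ m,
        ∑ i ∈ Ico ((2 : ℤ) ^ j * m) (2 ^ j * m + 2 ^ j), pot w (G k i) (E k i) ≤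
          2 ^ j * (G n m).trace := by
      intro j
      induction j with
      | zero =>
        intro k hk m
        have hk' : k = n := by omega
        subst hk'
        have h1 : Ico m (m + 1) = {m} := by ext y; simp only [mem_Ico, mem_singleton]; omega
        simpa [h1] using hp0 m
      | succ j ih =>
        intro k hk m
        have hk' : k < n := by omega
        have ih' := ih (k + 1) (by omega) m
        have hI : Ico ((2 : ℤ) ^ (j + 1) * m) (2 ^ (j + 1) * m + 2 ^ (j + 1)) =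
            (Ico ((2 : ℤ) ^ j * m) (2 ^ j * m + 2 ^ j)).biUnion fun i => {2 * i, 2 * i + 1} := by
          have e0 : (2 : ℤ) ^ (j + 1) * m = 2 * (2 ^ j * m) := by rw [pow_succ]; ring
          have e0' : (2 : ℤ) ^ (j + 1) = 2 * 2 ^ j := by rw [pow_succ]; ring
          rw [e0, e0']
          generalize (2 : ℤ) ^ j * m = a
          generalize (2 : ℤ) ^ j = b
          ext y
          simp only [mem_Ico, mem_biUnion, mem_insert, mem_singleton]
          constructor
          · rintro ⟨h1, h2⟩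
            refine ⟨y / 2, ⟨by omega, by omega⟩, by omega⟩
          · rintro ⟨i, ⟨h1, h2⟩, h3⟩
            constructor <;> omega
        have hdis : ∀ a ∈ Ico ((2 : ℤ) ^ j * m) (2 ^ j * m + 2 ^ j),
            ∀ b ∈ Ico ((2 : ℤ) ^ j * m) (2 ^ j * m + 2 ^ j), a ≠ b →
            Disjoint ({2 * a, 2 * a + 1} : Finset ℤ) {2 * b, 2 * b + 1} := by
          intro a _ b _ hab
          rw [disjoint_left]
          intro y h1 h2
          simp only [mem_insert, mem_singleton] at h1 h2
          omega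
        rw [hI, sum_biUnion hdis]
        have hterm : ∀ i : ℤ, ∑ y ∈ ({2 * i, 2 * i + 1} : Finset ℤ), pot w (G k y) (E k y) ≤
            2 * pot w (G (k + 1) i) (E (k + 1) i) := by
          intro i
          rw [sum_pair (by omega)]
          have h1 := hp1 k hk' (2 * i)
          have h2 := hp1 k hk' (2 * i + 1)
          have e1 : 2 * i / 2 = i := by omega
          have e2 : (2 * i + 1) / 2 = i := by omega
          rw [e1] at h1
          rw [e2] at h2
          have e3 : pot w (G k (2 * i)) (E (k + 1) i) + pot w (G k (2 * i + 1)) (E (k + 1) i) =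
              2 * pot w (G (k + 1) i) (E (k + 1) i) := by
            unfold pot
            rw [hmean k hk' i, Matrix.mul_smul, Matrix.mul_add, trace_smul, trace_add, smul_eq_mul]
            ring
          linarith
        calc ∑ i ∈ Ico ((2 : ℤ) ^ j * m) (2 ^ j * m + 2 ^ j),
              ∑ y ∈ ({2 * i, 2 * i + 1} : Finset ℤ), pot w (G k y) (E k y)
            ≤ ∑ i ∈ Ico ((2 : ℤ) ^ j * m) (2 ^ j * m + 2 ^ j),
              2 * pot w (G (k + 1) i) (E (k + 1) i) := sum_le_sum fun i _ => hterm i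
          _ = 2 * ∑ i ∈ Ico ((2 : ℤ) ^ j * m) (2 ^ j * m + 2 ^ j),
              pot w (G (k + 1) i) (E (k + 1) i) := by rw [mul_sum]
          _ ≤ 2 * (2 ^ j * (G n m).trace) := by linarith
          _ = 2 ^ (j + 1) * (G n m).trace := by ring
    intro k hk m
    exact key (n - k) k (by omega) m

/-- the residual has nonnegative trace -/
theorem trace_res_nonneg {G E : Matrix ι ι ℝ} (hG : G.PosSemidef) (hE : Pj E) :
    0 ≤ ((1 - E) * G).trace := by
  have hC := hE.compl
  have h1 := hG.mul_mul_conjTranspose_same (1 - E)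
  rw [conjTranspose_eq_transpose_of_trivial, hC.tr] at h1
  have h2 : ((1 - E) * G).trace = ((1 - E) * G * (1 - E)).trace := by
    rw [trace_mul_comm ((1 - E) * G) (1 - E), ← Matrix.mul_assoc, hC.sq]
  rw [h2]
  exact h1.trace_nonneg

/-- **Mean rank at the scale `k`.** -/
theorem mean_rank_le {w : ℝ} (hw : 0 < w) {n k : ℕ} {G E : ℕ → ℤ → Matrix ι ι ℝ} {m : ℤ}
    (hG : ∀ m, (G k m).PosSemidef) (hE : ∀ m, Pj (E k m))
    (h : ∑ i ∈ Ico (2 ^ (n - k) * m) (2 ^ (n - k) * m + 2 ^ (n - k)),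
        (w * (E k i).trace + ((1 - E k i) * G k i).trace) ≤ 2 ^ (n - k) * (G n m).trace) :
    (2 ^ (n - k) : ℝ)⁻¹ * ∑ i ∈ Ico (2 ^ (n - k) * m) (2 ^ (n - k) * m + 2 ^ (n - k)),
      (E k i).trace ≤ (G n m).trace / w := by
  have h1 : w * ∑ i ∈ Ico ((2 : ℤ) ^ (n - k) * m) (2 ^ (n - k) * m + 2 ^ (n - k)),
      (E k i).trace ≤ 2 ^ (n - k) * (G n m).trace := by
    refine le_trans ?_ h
    rw [mul_sum]
    exact sum_le_sum fun i _ => le_add_of_nonneg_right (trace_res_nonneg (hG i) (hE i))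
  rw [le_div_iff₀ hw, inv_mul_eq_div, div_mul_eq_mul_div, div_le_iff₀ (by positivity)]
  linarith

/-- **Mass of a bounded potential on the born directions**, at the scale `k`. -/
theorem mean_mass_le {w h : ℝ} (hw : 0 < w) (hh : 0 ≤ h) {n k : ℕ}
    {G E H : ℕ → ℤ → Matrix ι ι ℝ} {m : ℤ}
    (hG : ∀ m, (G k m).PosSemidef) (hE : ∀ m, Pj (E k m))
    (hH : ∀ m, (h • (1 : Matrix ι ι ℝ) - H k m).PosSemidef)
    (hs : ∑ i ∈ Ico (2 ^ (n - k) * m) (2 ^ (n - k) * m + 2 ^ (n - k)),
        (w * (E k i).trace + ((1 - E k i) * G k i).trace) ≤ 2 ^ (n - k) * (G n m).trace) :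
    (2 ^ (n - k) : ℝ)⁻¹ * ∑ i ∈ Ico (2 ^ (n - k) * m) (2 ^ (n - k) * m + 2 ^ (n - k)),
      (E k i * H k i).trace ≤ h * ((G n m).trace / w) := by
  have h1 := mean_rank_le hw hG hE hs
  refine le_trans ?_ (mul_le_mul_of_nonneg_left h1 hh)
  rw [← mul_assoc, mul_comm h, mul_assoc]
  refine mul_le_mul_of_nonneg_left ?_ (by positivity)
  rw [mul_sum]
  exact sum_le_sum fun i _ => trace_mul_le (hE i) (hH i)

end

end Vale.Agent.P141.H223
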