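import Vale.Agent.P141.H677.SkelTF
import Vale.Agent.P141.H483.QSum

/-!
# P141, line (A), flow part, the term of scale `0`

`P0_le` : the functional `P0` of `H677.SkelTF` is at most `4 √(√(a4 b4) q)`, with `a4`, `b4` the
sums of the fourth powers of the families `A`, `b` at the time `0` and `q` the energy of
`RT 0 *ᵥ C` at the time `0`; `RT_C_le` : this energy for `C = φ • v` with `φ² ≤ e`.
-/

namespace Vale.Agent.P141.H223

open Finset Matrix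
open Vale.Agent.P141.PL (Pt iv hs ix mem_iv cb mem_cb cx)
open Vale.Agent.P141.H677 (rt RT GT GA)
open Vale.Agent.P141.H677.Sk
open Vale.Agent.P141.H352 (In)
open Vale.Agent.P141.H795 (kp V3)

noncomputable section

open scoped Classical

/-- one tied sum over the root -/
theorem tied_sum (K : ℕ) (M : Pt) (c : ℤ) (F : Pt → ℝ) :
    ∑ y ∈ cb K M with y.1 + y.2.1 + y.2.2 = c, F y =
      ∑ x ∈ iv K M.1, ∑ z ∈ iv K M.2.2,
        if c - x - z ∈ iv K M.2.1 then F (x, c - x - z, z) else 0 := by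
  unfold PL.cb
  rw [sum_filter, sum_product]
  refine sum_congr rfl fun x _ => ?_
  rw [sum_product, sum_comm]
  refine sum_congr rfl fun z _ => ?_
  have h1 : ∀ y ∈ iv K M.2.1, (if x + y + z = c then F (x, y, z) else 0) =
      if y = c - x - z then F (x, c - x - z, z) else 0 := by
    intro y _
    by_cases h : y = c - x - z
    · subst h
      rw [if_pos rfl, if_pos (by ring)]
    · rw [if_neg h, if_neg (by intro h'; apply h; linarith)]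
  rw [sum_congr rfl h1, sum_ite_eq']

theorem abs_V3 (i : ℤ) : |V3 i| ≤ 4 / 3 := by
  unfold H795.V3
  split_ifs <;> norm_num [abs_div]

/-- an injective substitution in a sum over a tile -/
theorem sub_le {K : ℕ} {m m' : ℤ} (c : ℤ) {Φ : ℤ → ℝ} (hΦ : ∀ y, 0 ≤ Φ y) :
    ∑ x ∈ iv K m, (if c - x ∈ iv K m' then Φ (c - x) else 0) ≤ ∑ y ∈ iv K m', Φ y := by
  rw [← sum_filter]
  have h1 : ∑ x ∈ (iv K m).filter (fun x => c - x ∈ iv K m'), Φ (c - x) =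
      ∑ y ∈ ((iv K m).filter (fun x => c - x ∈ iv K m')).image (fun x => c - x), Φ y := by
    rw [sum_image]
    intro a _ b _ hab
    simp only at hab
    omega
  rw [h1]
  refine sum_le_sum_of_subset_of_nonneg ?_ fun y _ _ => hΦ y
  intro y hy
  rw [mem_image] at hy
  obtain ⟨x, hx, rfl⟩ := hy
  exact (mem_filter.1 hx).2

variable {ι : Type} [Fintype ι] [DecidableEq ι]

omit [DecidableEq ι] in
theorem abs_dot_le (a b : ι → ℝ) : |a ⬝ᵥ b| ≤ √(a ⬝ᵥ a) * √(b ⬝ᵥ b) := by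
  have h := Real.sum_mul_le_sqrt_mul_sqrt univ a b
  have h' := Real.sum_mul_le_sqrt_mul_sqrt univ (fun i => -a i) b
  have e1 : ∀ c : ι → ℝ, ∑ i, c i ^ 2 = c ⬝ᵥ c := fun c => by
    simp only [dotProduct, sq]
  have e2 : ∑ i, (-a i) ^ 2 = a ⬝ᵥ a := by
    simp only [dotProduct, sq, neg_mul_neg]
  rw [e1, e1] at h
  rw [e2, e1] at h'
  have e3 : ∑ i, -a i * b i = -(a ⬝ᵥ b) := by
    simp only [dotProduct, neg_mul, sum_neg_distrib]
  rw [e3] at h'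
  rw [abs_le]
  constructor
  · linarith
  · exact h

omit [DecidableEq ι] in
theorem dns (a : ι → ℝ) : 0 ≤ a ⬝ᵥ a := by
  unfold dotProduct
  exact sum_nonneg fun i _ => mul_self_nonneg _

section main

variable {Al : ℕ → Pt → Prop} {o : ℤ} {K : ℕ} {M : Pt} {sg : ℕ → Pt → ℝ} {l : ℝ}
  {u : ℤ → ℤ → ι → ℝ} {A : FamA} {b C : FamV ι}

/-- **The term of scale `0`**, families at the time `j`. -/
theorem In0_le (j : ℕ) {a4 b4 q : ℝ}
    (hA : ∑ t ∈ rt M, ∑ x0 ∈ iv K t, ∑ z ∈ iv K M.2.2, ∑ y ∈ iv K M.2.1, A x0 j z y ^ 4 ≤ a4)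
    (hb : ∑ t ∈ rt M, ∑ x0 ∈ iv K t, ∑ x ∈ iv K M.1, ∑ y ∈ iv K M.2.1,
      (b x0 j x y ⬝ᵥ b x0 j x y) ^ 2 ≤ b4)
    (hC : ∑ t ∈ rt M, ∑ x0 ∈ iv K t, ∑ x ∈ iv K M.1, ∑ z ∈ iv K M.2.2,
      (RT Al o K M sg l u 0 x0 z x *ᵥ C x0 j z x) ⬝ᵥ
        (RT Al o K M sg l u 0 x0 z x *ᵥ C x0 j z x) ≤ q) :
    ∑ t ∈ rt M, ∑ x0 ∈ iv K t, |In K M (kp (-x0) 0) (GS Al o K M sg l u A b C x0 0 j)| ≤
      4 * √(√(a4 * b4) * q) := by
  set w : ℤ → ℤ → ℤ → ι → ℝ := fun x0 z x => RT Al o K M sg l u 0 x0 z x *ᵥ C x0 j z x with hw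
  set I3 : Finset ℤ := Icc (-3 : ℤ) (-1) with hI3
  have c3 : I3.card = 3 := by rw [hI3]; rfl
  set X : Finset (Σ _ : ℤ, ℤ) := (rt M).sigma fun t => iv K t with hX
  set Q : Finset ((Σ _ : ℤ, ℤ) × ℤ × ℤ × ℤ) := X ×ˢ I3 ×ˢ iv K M.1 ×ˢ iv K M.2.2 with hQ
  set yy : ((Σ _ : ℤ, ℤ) × ℤ × ℤ × ℤ) → ℤ := fun r => -r.1.2 - r.2.1 - r.2.2.1 - r.2.2.2 with hyy
  set f : ((Σ _ : ℤ, ℤ) × ℤ × ℤ × ℤ) → ℝ := fun r => if yy r ∈ iv K M.2.1 then
    |A r.1.2 j r.2.2.2 (yy r)| * √(b r.1.2 j r.2.2.1 (yy r) ⬝ᵥ b r.1.2 j r.2.2.1 (yy r)) else 0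
    with hf
  set g : ((Σ _ : ℤ, ℤ) × ℤ × ℤ × ℤ) → ℝ := fun r =>
    √(w r.1.2 r.2.2.2 r.2.2.1 ⬝ᵥ w r.1.2 r.2.2.2 r.2.2.1) with hg
  -- unfolding a sum over `Q`
  have eQ : ∀ F : ((Σ _ : ℤ, ℤ) × ℤ × ℤ × ℤ) → ℝ, ∑ r ∈ Q, F r =
      ∑ t ∈ rt M, ∑ x0 ∈ iv K t, ∑ i ∈ I3, ∑ x ∈ iv K M.1, ∑ z ∈ iv K M.2.2,
        F (⟨t, x0⟩, i, x, z) := by
    intro F
    rw [hQ, sum_product, hX, sum_sigma]
    refine sum_congr rfl fun t _ => sum_congr rfl fun x0 _ => ?_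
    rw [sum_product]
    refine sum_congr rfl fun i _ => ?_
    rw [sum_product]
  -- step 1 : P0 against the sum
  have s1 : ∑ t ∈ rt M, ∑ x0 ∈ iv K t, |In K M (kp (-x0) 0) (GS Al o K M sg l u A b C x0 0 j)| ≤
      4 / 3 * ∑ r ∈ Q, f r * g r := by
    rw [eQ, mul_sum]
    refine sum_le_sum fun t _ => ?_
    rw [mul_sum]
    refine sum_le_sum fun x0 _ => ?_
    rw [H795.In_zero, mul_sum]
    refine (abs_sum_le_sum_abs _ _).trans (sum_le_sum fun i _ => ?_)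
    rw [abs_mul]
    refine mul_le_mul (abs_V3 i) ?_ (abs_nonneg _) (by norm_num)
    rw [tied_sum]
    refine (abs_sum_le_sum_abs _ _).trans (sum_le_sum fun x _ => ?_)
    refine (abs_sum_le_sum_abs _ _).trans (sum_le_sum fun z _ => ?_)
    have ey : -x0 - i - x - z = yy (⟨t, x0⟩, i, x, z) := rfl
    rw [hf]
    simp only
    rw [ey]
    split_ifs with h
    · unfold GS GA sl
      simp only
      rw [abs_mul, mul_assoc]
      refine mul_le_mul_of_nonneg_left ?_ (abs_nonneg _)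
      exact abs_dot_le _ _
    · rw [abs_zero, zero_mul]
  -- step 2 : Cauchy-Schwarz
  have s2 : ∑ r ∈ Q, f r * g r ≤ √(∑ r ∈ Q, f r ^ 2) * √(∑ r ∈ Q, g r ^ 2) :=
    Real.sum_mul_le_sqrt_mul_sqrt _ _ _
  have s3 : ∑ r ∈ Q, g r ^ 2 ≤ 3 * q := by
    rw [eQ]
    have e1 : ∀ t x0 i x z, g (⟨t, x0⟩, i, x, z) ^ 2 = w x0 z x ⬝ᵥ w x0 z x := by
      intro t x0 i x z
      rw [hg]
      simp only
      exact Real.sq_sqrt (dns _)
    simp only [e1, sum_const, c3, nsmul_eq_mul]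
    push_cast
    simp only [← mul_sum]
    linarith
  have s4 : ∑ r ∈ Q, f r ^ 2 ≤ √(3 * a4) * √(3 * b4) := by
    set f1 : ((Σ _ : ℤ, ℤ) × ℤ × ℤ × ℤ) → ℝ := fun r => if yy r ∈ iv K M.2.1 then
      A r.1.2 j r.2.2.2 (yy r) ^ 2 else 0 with hf1
    set f2 : ((Σ _ : ℤ, ℤ) × ℤ × ℤ × ℤ) → ℝ := fun r => if yy r ∈ iv K M.2.1 then
      b r.1.2 j r.2.2.1 (yy r) ⬝ᵥ b r.1.2 j r.2.2.1 (yy r) else 0 with hf2
    have e1 : ∀ r, f r ^ 2 = f1 r * f2 r := by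
      intro r
      rw [hf, hf1, hf2]
      simp only
      split_ifs
      · rw [mul_pow, sq_abs, Real.sq_sqrt (dns _)]
      · simp
    simp only [e1]
    refine (Real.sum_mul_le_sqrt_mul_sqrt _ _ _).trans ?_
    refine mul_le_mul (Real.sqrt_le_sqrt ?_) (Real.sqrt_le_sqrt ?_) (Real.sqrt_nonneg _)
      (Real.sqrt_nonneg _)
    · rw [eQ]
      calc ∑ t ∈ rt M, ∑ x0 ∈ iv K t, ∑ i ∈ I3, ∑ x ∈ iv K M.1, ∑ z ∈ iv K M.2.2,
            f1 (⟨t, x0⟩, i, x, z) ^ 2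
          ≤ ∑ t ∈ rt M, ∑ x0 ∈ iv K t, ∑ i ∈ I3, ∑ z ∈ iv K M.2.2, ∑ y ∈ iv K M.2.1,
              A x0 j z y ^ 4 := by
            refine sum_le_sum fun t _ => sum_le_sum fun x0 _ => sum_le_sum fun i _ => ?_
            rw [sum_comm]
            refine sum_le_sum fun z _ => ?_
            refine le_trans (le_of_eq ?_) (sub_le (K := K) (m := M.1) (m' := M.2.1)
              (-x0 - i - z) (Φ := fun y => A x0 j z y ^ 4) fun y => by positivity)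
            refine sum_congr rfl fun x _ => ?_
            have ey : yy (⟨t, x0⟩, i, x, z) = -x0 - i - z - x := by
              rw [hyy]
              ring
            rw [hf1]
            simp only
            rw [ey]
            split_ifs
            · ring
            · ring
        _ ≤ 3 * a4 := by
            simp only [sum_const, c3, nsmul_eq_mul]
            push_cast
            simp only [← mul_sum]
            linarith
    · rw [eQ]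
      calc ∑ t ∈ rt M, ∑ x0 ∈ iv K t, ∑ i ∈ I3, ∑ x ∈ iv K M.1, ∑ z ∈ iv K M.2.2,
            f2 (⟨t, x0⟩, i, x, z) ^ 2
          ≤ ∑ t ∈ rt M, ∑ x0 ∈ iv K t, ∑ i ∈ I3, ∑ x ∈ iv K M.1, ∑ y ∈ iv K M.2.1,
              (b x0 j x y ⬝ᵥ b x0 j x y) ^ 2 := by
            refine sum_le_sum fun t _ => sum_le_sum fun x0 _ => sum_le_sum fun i _ => ?_
            refine sum_le_sum fun x _ => ?_
            refine le_trans (le_of_eq ?_) (sub_le (K := K) (m := M.2.2) (m' := M.2.1)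
              (-x0 - i - x) (Φ := fun y => (b x0 j x y ⬝ᵥ b x0 j x y) ^ 2) fun y => by positivity)
            refine sum_congr rfl fun z _ => ?_
            have ey : yy (⟨t, x0⟩, i, x, z) = -x0 - i - x - z := rfl
            rw [hf2]
            simp only
            rw [ey]
            split_ifs
            · rfl
            · ring
        _ ≤ 3 * b4 := by
            simp only [sum_const, c3, nsmul_eq_mul]
            push_cast
            simp only [← mul_sum]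
            linarith
  have a0 : 0 ≤ a4 := le_trans (sum_nonneg fun _ _ => sum_nonneg fun _ _ => sum_nonneg fun _ _ =>
    sum_nonneg fun _ _ => by positivity) hA
  have b0 : 0 ≤ b4 := le_trans (sum_nonneg fun _ _ => sum_nonneg fun _ _ => sum_nonneg fun _ _ =>
    sum_nonneg fun _ _ => by positivity) hb
  have q0 : 0 ≤ q := le_trans (sum_nonneg fun _ _ => sum_nonneg fun _ _ => sum_nonneg fun _ _ =>
    sum_nonneg fun _ _ => dns _) hC
  have s5 : √(3 * a4) * √(3 * b4) = 3 * √(a4 * b4) := by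
    rw [← Real.sqrt_mul (by positivity), show 3 * a4 * (3 * b4) = 3 ^ 2 * (a4 * b4) by ring,
      Real.sqrt_mul (by positivity), Real.sqrt_sq (by norm_num)]
  have s6 : √(3 * √(a4 * b4)) * √(3 * q) = 3 * √(√(a4 * b4) * q) := by
    rw [← Real.sqrt_mul (by positivity),
      show 3 * √(a4 * b4) * (3 * q) = 3 ^ 2 * (√(a4 * b4) * q) by ring,
      Real.sqrt_mul (by positivity), Real.sqrt_sq (by norm_num)]
  calc _ ≤ 4 / 3 * ∑ r ∈ Q, f r * g r := s1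
    _ ≤ 4 / 3 * (√(3 * √(a4 * b4)) * √(3 * q)) := by
        refine mul_le_mul_of_nonneg_left (s2.trans ?_) (by norm_num)
        refine mul_le_mul (Real.sqrt_le_sqrt (s4.trans_eq s5)) (Real.sqrt_le_sqrt s3)
          (Real.sqrt_nonneg _) (Real.sqrt_nonneg _)
    _ = 4 * √(√(a4 * b4) * q) := by
        rw [s6]
        ring

/-- **The functional `P0`.** -/
theorem P0_le {a4 b4 q : ℝ}
    (hA : ∑ t ∈ rt M, ∑ x0 ∈ iv K t, ∑ z ∈ iv K M.2.2, ∑ y ∈ iv K M.2.1, A x0 0 z y ^ 4 ≤ a4)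
    (hb : ∑ t ∈ rt M, ∑ x0 ∈ iv K t, ∑ x ∈ iv K M.1, ∑ y ∈ iv K M.2.1,
      (b x0 0 x y ⬝ᵥ b x0 0 x y) ^ 2 ≤ b4)
    (hC : ∑ t ∈ rt M, ∑ x0 ∈ iv K t, ∑ x ∈ iv K M.1, ∑ z ∈ iv K M.2.2,
      (RT Al o K M sg l u 0 x0 z x *ᵥ C x0 0 z x) ⬝ᵥ
        (RT Al o K M sg l u 0 x0 z x *ᵥ C x0 0 z x) ≤ q) :
    P0 ι Al o K M sg l u A b C ≤ 4 * √(√(a4 * b4) * q) := In0_le 0 hA hb hC

/-- the energy of the moved functions at the time `0`, `C = φ • v`, `φ² ≤ e` -/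
theorem RT_C_le (j : ℕ) (hl : 0 < l) (hsg : ∀ k m, |sg k m| ≤ 1) {v : ℤ → ℤ → ι → ℝ} {P e : ℝ}
    (hv : ∀ x1 ∈ iv K M.1, ∀ θ : ι → ℝ, ∑ x3 ∈ iv K M.2.2, (θ ⬝ᵥ v x1 x3) ^ 2 ≤ P * (θ ⬝ᵥ θ))
    {φ : ℤ → ℤ → ℤ → ℝ} (he : 0 ≤ e) (hφ : ∀ x0 z x, φ x0 z x ^ 2 ≤ e)
    (hCv : ∀ x0, ∀ z ∈ iv K M.2.2, ∀ x ∈ iv K M.1, C x0 j z x = φ x0 z x • v x z) :
    ∑ t ∈ rt M, ∑ x0 ∈ iv K t, ∑ x ∈ iv K M.1, ∑ z ∈ iv K M.2.2,
      (RT Al o K M sg l u 0 x0 z x *ᵥ C x0 j z x) ⬝ᵥ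
        (RT Al o K M sg l u 0 x0 z x *ᵥ C x0 j z x) ≤
    e * (2 ^ K * ((2 * l)⁻¹ * (P * ∑ x1 ∈ iv K M.1, (GT u x1 K M.2.1).trace))) := by
  have h1 := H483.RT_end_sum (A := Al) (o := o) (K := K) (M := M) (sg := sg) (l := l) (u := u)
    (v := v) (P := P) hl hsg (rt M) hv
  refine le_trans ?_ (mul_le_mul_of_nonneg_left h1 he)
  rw [mul_sum]
  have h2 : ∑ t ∈ rt M, ∑ x0 ∈ iv K t, ∑ x ∈ iv K M.1, ∑ z ∈ iv K M.2.2,
      (RT Al o K M sg l u 0 x0 z x *ᵥ C x0 j z x) ⬝ᵥ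
        (RT Al o K M sg l u 0 x0 z x *ᵥ C x0 j z x) =
      ∑ x ∈ iv K M.1, ∑ z ∈ iv K M.2.2, ∑ t ∈ rt M, ∑ x0 ∈ iv K t,
      (RT Al o K M sg l u 0 x0 z x *ᵥ C x0 j z x) ⬝ᵥ
        (RT Al o K M sg l u 0 x0 z x *ᵥ C x0 j z x) := by
    have e1 : ∀ F : ℤ → ℤ → ℤ → ℝ, ∑ t ∈ rt M, ∑ x0 ∈ iv K t, ∑ x ∈ iv K M.1,
        ∑ z ∈ iv K M.2.2, F x0 x z = ∑ x ∈ iv K M.1, ∑ z ∈ iv K M.2.2, ∑ t ∈ rt M,
        ∑ x0 ∈ iv K t, F x0 x z := by
      intro F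
      calc _ = ∑ t ∈ rt M, ∑ x ∈ iv K M.1, ∑ z ∈ iv K M.2.2, ∑ x0 ∈ iv K t, F x0 x z := by
            refine sum_congr rfl fun t _ => ?_
            rw [sum_comm]
            refine sum_congr rfl fun x _ => ?_
            rw [sum_comm]
        _ = _ := by
            rw [sum_comm]
            refine sum_congr rfl fun x _ => ?_
            rw [sum_comm]
    exact e1 fun x0 x z => (RT Al o K M sg l u 0 x0 z x *ᵥ C x0 j z x) ⬝ᵥ
        (RT Al o K M sg l u 0 x0 z x *ᵥ C x0 j z x)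
  rw [h2]
  refine sum_le_sum fun x hx => ?_
  rw [mul_sum]
  refine sum_le_sum fun z hz => ?_
  rw [mul_sum]
  refine sum_le_sum fun t _ => ?_
  rw [mul_sum]
  refine sum_le_sum fun x0 _ => ?_
  rw [hCv x0 z hz x hx, mulVec_smul, smul_dotProduct, dotProduct_smul, smul_eq_mul, smul_eq_mul,
    ← mul_assoc, ← sq]
  exact mul_le_mul_of_nonneg_right (hφ x0 z x) (dns _)

end main

end

end Vale.Agent.P141.H223
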